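import Vale.Agent.P275.H341.Quad
import Vale.Agent.P275.H85G.Q22

/-!
# The isotypic parts of order two for rank four and genus two: the two filtrations agree
-/

namespace Vale.Agent.Results.P275.FourGenusTwo

open scoped BigOperators MatrixGroups
open Module Vale.Agent.P275.H85 Vale.Agent.P275.H341

theorem result (V : Type) [AddCommGroup V] [Module ℂ V] [FiniteDimensional ℂ V] (X : Quad V)
    (H : ∀ (F : Type) [Field F] [Fintype F] [DecidableEq F], 8 ∣ Fintype.card F - 1 →
      ∃ (ζ : Fˣ) (κ κ' : Fin 2 → (Fˣ →* ℂˣ)), orderOf ζ = 4 ∧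
        orderOf (fun i => (κ i, κ' i)) = 2 ∧
        commSum F 4 2 ζ κ κ' = ((Fintype.card F : ℂ) - 1) ^ 3 *
          (Fintype.card (GL (Fin 4) F) : ℂ) *
          ∑ k ∈ Finset.range 31, ∑ w ∈ Finset.range (2 * k + 1),
            (-1) ^ k * (finrank ℂ (X.J k w) : ℂ) *
              ((Real.sqrt (Fintype.card F) : ℝ) : ℂ) ^ (60 - w)) :
    ∀ k i, X.P k i = (⨆ (w) (_ : w ≤ 2 * i), X.J k w) ∧
      X.P k i = ⨆ (w) (_ : w ≤ 2 * i + 1), X.J k w := by
  apply X.agree
  refine Vale.Agent.P275.H85G.Q.rowQ22 (fun k w => finrank ℂ (X.J k w)) ?_ ?_ ?_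
  · intro k w hkw
    apply X.bound k w
    intro h0
    apply hkw
    rw [h0, finrank_bot]
  · intro k w hk
    rw [X.low k hk w, finrank_bot]
  · intro F _ _ _ hF
    exact H F hF

end Vale.Agent.Results.P275.FourGenusTwo
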