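import Vale.Agent.P275.H341.All
import Vale.Agent.P275.H452.TopG
import Vale.Agent.P275.H93.Pal4

/-!
# The isotypic point count of the twisted character variety for characters of every order,
# its palindromicity, and the weight of the lowest degree of every variant isotypic part
-/

namespace Vale.Agent.Results.P275.KappaAllOrders

open scoped BigOperators MatrixGroups
open Vale.Agent.P275.H85 Vale.Agent.P275.H341

theorem result (n m g : ℕ) (hn : 1 ≤ n) (hm : m ∣ n) (hg : 1 ≤ g) :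
    ∃ E : ℂ → ℂ,
    (∀ q, E q = q ^ (n * (n - 1) * (g - 1)) * ((1 / n) * ∑ d ∈ n.divisors,
      ((ArithmeticFunction.moebius d : ℤ) : ℂ) *
        ld (fun k => ∑ lam ∈ Pt k, hk (q ^ d) lam ^ ((2 * g - 2) * (m / Nat.gcd m d)))
          (n / Nat.lcm m d))) ∧
    (∀ (F : Type) [Field F] [Fintype F] [DecidableEq F] (ζ : Fˣ) (κ κ' : Fin g → (Fˣ →* ℂˣ)),
      orderOf ζ = n → orderOf (fun i => (κ i, κ' i)) = m →
      (∀ i, κ i (-1) = 1 ∧ κ' i (-1) = 1) →
      commSum F n g ζ κ κ' = ((Fintype.card F : ℂ) - 1) *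
        (Fintype.card (GL (Fin n) F) : ℂ) * E (Fintype.card F)) ∧
    (∀ q : ℂ, q ≠ 0 → (∀ i, 0 < i → q ^ i ≠ 1) →
      E q⁻¹ * q ^ (2 * n ^ 2 * (g - 1)) = E q) ∧
    (2 ≤ m → 2 ≤ g → ∀ h : ℕ → ℕ → ℕ,
      (∀ k w, h k w ≠ 0 → k ≤ w ∧ w ≤ 2 * k) →
      (∀ k w, k ≤ 2 * (n * (n - n / m) * (g - 1)) → h k w = 0) →
      (∑ w ∈ Finset.range (2 * (2 * (n * (n - n / m) * (g - 1)) + 1) + 1),
        h (2 * (n * (n - n / m) * (g - 1)) + 1) w = 2 * g - 2) →
      (∀ (F : Type) [Field F] [Fintype F] [DecidableEq F], 2 * n ∣ Fintype.card F - 1 →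
        ∃ (ζ : Fˣ) (κ κ' : Fin g → (Fˣ →* ℂˣ)), orderOf ζ = n ∧
          orderOf (fun i => (κ i, κ' i)) = m ∧
          commSum F n g ζ κ κ'
            = ((Fintype.card F : ℂ) - 1) ^ (2 * g - 1) * (Fintype.card (GL (Fin n) F) : ℂ) *
              ∑ k ∈ Finset.range (2 * ((n ^ 2 - 1) * (g - 1)) + 1),
                ∑ w ∈ Finset.range (2 * k + 1), (-1) ^ k * (h k w : ℂ) *
                  ((Real.sqrt (Fintype.card F) : ℝ) : ℂ) ^ (4 * ((n ^ 2 - 1) * (g - 1)) - w)) →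
      (∀ w, h (2 * (n * (n - n / m) * (g - 1)) + 1) w
        = if w = 2 * (n * (n - n / m) * (g - 1) + 1) then 2 * g - 2 else 0) ∧
      h (2 * (n * (n - n / m) * (g - 1)) + 2) (2 * (n * (n - n / m) * (g - 1)) + 2) = 0) := by
  have key : ∀ (q : ℂ) (d e : ℕ), om (powMonoidHom (2 * g - 2)) q d e
      = fun k => ∑ lam ∈ Pt k, hk (q ^ d) lam ^ ((2 * g - 2) * e) := by
    intro q d e
    funext k
    unfold om
    apply Finset.sum_congr rfl
    intro lam _
    rw [powMonoidHom_apply, ← pow_mul]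
  refine ⟨fun q => eG n m g q, ?_, ?_, ?_, fun h2m h2g h H0 H1 H2 H3 => lowG allC9 allC10
    Vale.Agent.P275.H85G.rowC11 Vale.Agent.P275.H452.rowTopG hn hm h2m h2g h H0 H1 H2 H3⟩
  · intro q
    unfold eG
    simp only [key]
  · intro F _ _ _ ζ κ κ' hζ hκ hneg
    exact count_all hn hm hg ζ hζ κ κ' hκ hneg
  · intro q hq hq1
    exact Vale.Agent.P275.H93.eG_inv hn hm hq hq1

end Vale.Agent.Results.P275.KappaAllOrders
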