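import Vale.Agent.P275.H341.EndoLit
import Vale.Agent.P275.H633.FixC

/-!
# The isotypic parts of the twisted character variety and the fixed loci: point counts for all
# characters, and the comparison of the two gradings on every isotypic part
-/

namespace Vale.Agent.Results.P275.KappaEndoscopy

open scoped BigOperators MatrixGroups
open Module Vale.Agent.P275.H85

theorem result (n m g : ℕ) (hn : 1 ≤ n) (hm : m ∣ n) (hg : 1 ≤ g) :
    (∀ (F : Type) [Field F] [Fintype F] [DecidableEq F] (ζ ω : Fˣ)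
      (κ κ' : Fin g → (Fˣ →* ℂˣ)) (κ₀ : Fˣ →* ℂˣ),
      orderOf ζ = n → orderOf ω = m → orderOf (fun i => (κ i, κ' i)) = m → orderOf κ₀ = m →
      (∀ i, κ i (-1) = 1 ∧ κ' i (-1) = 1) → κ₀ (-1) = 1 →
      ((Fintype.card F : ℂ) - 1) * commSum F n g ζ κ κ'
        = (Fintype.card F : ℂ) ^ (n * (n - n / m) * (g - 1)) *
          Vale.Agent.P275.H633.fixSum F n g ζ ω κ₀) ∧
    (∀ (D R : ℕ), D = n * (n - n / m) * (g - 1) → ∀ hW hP : ℕ → ℕ → ℕ,
      (∀ k w, hW k w ≠ 0 → w ≤ 2 * k) → (∀ k j, hP k j ≠ 0 → j + D ≤ k) →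
      (∀ (F : Type) [Field F] [Fintype F] [DecidableEq F], 2 * n ∣ Fintype.card F - 1 →
        ∃ (ζ ω : Fˣ) (κ κ' : Fin g → (Fˣ →* ℂˣ)) (κ₀ : Fˣ →* ℂˣ),
          orderOf ζ = n ∧ orderOf ω = m ∧ orderOf (fun i => (κ i, κ' i)) = m ∧
          orderOf κ₀ = m ∧
          commSum F n g ζ κ κ'
            = ((Fintype.card F : ℂ) - 1) ^ (2 * g - 1) * (Fintype.card (GL (Fin n) F) : ℂ) *
              ∑ k ∈ Finset.range (2 * R + 1), ∑ w ∈ Finset.range (2 * k + 1),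
                (-1) ^ k * (hW k w : ℂ) *
                  ((Real.sqrt (Fintype.card F) : ℝ) : ℂ) ^ (4 * R - w) ∧
          Vale.Agent.P275.H633.fixSum F n g ζ ω κ₀
            = ((Fintype.card F : ℂ) - 1) ^ (2 * g) * (Fintype.card (GL (Fin n) F) : ℂ) *
              ∑ k ∈ Finset.range (2 * R + 1), ∑ j ∈ Finset.range (k + 1 - D),
                (-1) ^ k * (hP k j : ℂ) * (Fintype.card F : ℂ) ^ (2 * R - D - j)) →
      (∀ j, ∑ k ∈ Finset.range (2 * R + 1), (-1 : ℤ) ^ k * hW k (2 * j)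
        = ∑ k ∈ Finset.range (2 * R + 1), (-1 : ℤ) ^ k * hP k j) ∧
      ∀ j, ∑ k ∈ Finset.range (2 * R + 1), (-1 : ℤ) ^ k * hW k (2 * j + 1) = 0) := by
  refine ⟨?_, fun D R hD hW hP HW HP H => Vale.Agent.P275.H341.lit_tables Vale.Agent.P275.H633.goalX hn hm hg D R hD
    hW hP HW HP H⟩
  intro F _ _ _ ζ ω κ κ' κ₀ hζ hω hκ hκ₀ hneg hneg₀
  exact Vale.Agent.P275.H633.goalX F n m g ζ ω κ κ' κ₀ hn hm hg hζ hω hκ hneg hκ₀ hneg₀

end Vale.Agent.Results.P275.KappaEndoscopy
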