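import Vale.Agent.P275.H85.R3

/-!
# The isotypic point count of the twisted character variety, for characters of exact order `n`,
# and the weights it forces
-/

namespace Vale.Agent.Results.P275.KappaWeights

open scoped BigOperators MatrixGroups
open Vale.Agent.P275.H85

theorem result (n g : ℕ) (hn : 1 ≤ n) (hg : 1 ≤ g) :
    (∀ (F : Type) [Field F] [Fintype F] [DecidableEq F] (ζ : Fˣ) (κ κ' : Fin g → (Fˣ →* ℂˣ)),
      orderOf ζ = n → orderOf (fun i => (κ i, κ' i)) = n →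
      (∀ i, κ i (-1) = 1 ∧ κ' i (-1) = 1) →
      commSum F n g ζ κ κ'
        = ((Fintype.card F : ℂ) - 1) ^ (2 * g - 1) * (Fintype.card (GL (Fin n) F) : ℂ) *
          ((Fintype.card F : ℂ) ^ (n * (n - 1) * (g - 1)) *
            ∑ S ∈ goodSets n g, (-1) ^ S.card * (Fintype.card F : ℂ) ^ S.card)) ∧
    ∀ h : ℕ → ℕ → ℕ,
      (∀ m w, h m w ≠ 0 → w ≤ 2 * m) →
      (∀ m, ∑ w ∈ Finset.range (2 * m + 1), h m w
        = ((goodSets n g).filter fun S => m = 2 * (n * (n - 1) * (g - 1)) + S.card).card) →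
      (∀ m k w, m + k = (n ^ 2 - 1) * (g - 1) + n * (n - 1) * (g - 1) →
        h m w = h (m + 2 * k) (w + 4 * k)) →
      (∀ (F : Type) [Field F] [Fintype F] [DecidableEq F], 2 * n ∣ Fintype.card F - 1 →
        ∃ (ζ : Fˣ) (κ κ' : Fin g → (Fˣ →* ℂˣ)), orderOf ζ = n ∧
          orderOf (fun i => (κ i, κ' i)) = n ∧
          commSum F n g ζ κ κ'
            = ((Fintype.card F : ℂ) - 1) ^ (2 * g - 1) * (Fintype.card (GL (Fin n) F) : ℂ) *
              ∑ m ∈ Finset.range (2 * ((n ^ 2 - 1) * (g - 1)) + 1),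
                ∑ w ∈ Finset.range (2 * m + 1), (-1) ^ m * (h m w : ℂ) *
                  ((Real.sqrt (Fintype.card F) : ℝ) : ℂ) ^ (4 * ((n ^ 2 - 1) * (g - 1)) - w)) →
      ∀ m w, h m w = if w + 2 * (n * (n - 1) * (g - 1)) = 2 * m then
        ((goodSets n g).filter fun S => m = 2 * (n * (n - 1) * (g - 1)) + S.card).card else 0 :=
  ⟨fun _ _ _ _ ζ κ κ' hζ hκ hneg => commSum_eq hn hg ζ hζ κ κ' hκ hneg,
    fun h H0 H1 H2 H3 => table_of_line H0 H1 (rigidity hn hg h H0 H1 H2 H3)⟩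

end Vale.Agent.Results.P275.KappaWeights
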